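import Mathlib

/-!
# Cylinders and shadows in space
-/

namespace Vale.Agent.P243.Half

open scoped RealInnerProductSpace

/-- The cylinder with base `B`, chart `e` of the base plane and axis `u`. -/
def cylinder (B : Set (EuclideanSpace ℝ (Fin 2)))
    (e : EuclideanSpace ℝ (Fin 2) →ₗᵢ[ℝ] EuclideanSpace ℝ (Fin 3))
    (u : EuclideanSpace ℝ (Fin 3)) : Set (EuclideanSpace ℝ (Fin 3)) :=
  {x | ∃ y ∈ B, ∃ t : ℝ, x = e y + t • u}

/-- The projection of `K` along `u`, in the chart `e`. -/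
def shadow (K : Set (EuclideanSpace ℝ (Fin 3)))
    (e : EuclideanSpace ℝ (Fin 2) →ₗᵢ[ℝ] EuclideanSpace ℝ (Fin 3))
    (u : EuclideanSpace ℝ (Fin 3)) : Set (EuclideanSpace ℝ (Fin 2)) :=
  {y | ∃ t : ℝ, e y + t • u ∈ K}

end Vale.Agent.P243.Half
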