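import Mathlib

/-!
# Cylinders covering an ellipsoid

The density `(1 - ‖x‖ ^ 2) ^ (-1/2)` on the unit ball gives mass `π / ‖b‖` to a line with velocity
`b` and has total mass `π ^ 2`.
-/

namespace Vale.Agent.P243.Half

open MeasureTheory Set Real Metric
open scoped RealInnerProductSpace ENNReal

/-- The plane. -/
abbrev R2 := EuclideanSpace ℝ (Fin 2)

/-- Space. -/
abbrev R3 := EuclideanSpace ℝ (Fin 3)

lemma lintegral_arc {β r : ℝ} (hβ : 0 < β) (hr : 0 < r) (t₀ : ℝ) :
    ∫⁻ t in Ioo (t₀ - r / β) (t₀ + r / β), ENNReal.ofReal (√(r ^ 2 - (β * (t - t₀)) ^ 2))⁻¹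
      = ENNReal.ofReal (π / β) := by
  have him : (fun θ => t₀ + r / β * sin θ) '' Ioo (-(π / 2)) (π / 2)
      = Ioo (t₀ - r / β) (t₀ + r / β) := by
    refine Subset.antisymm ?_ fun t ht => ?_
    · rintro _ ⟨θ, hθ, rfl⟩
      obtain ⟨h1, h2⟩ := mapsTo_sin_Ioo hθ
      have := div_pos hr hβ
      constructor <;> nlinarith
    · have h1 : -1 < (t - t₀) / (r / β) := by
        rw [lt_div_iff₀ (div_pos hr hβ)]; linarith [ht.1]
      have h2 : (t - t₀) / (r / β) < 1 := by
        rw [div_lt_one (div_pos hr hβ)]; linarith [ht.2]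
      refine ⟨arcsin ((t - t₀) / (r / β)),
        ⟨neg_pi_div_two_lt_arcsin.2 h1, arcsin_lt_pi_div_two.2 h2⟩, ?_⟩
      show t₀ + r / β * sin (arcsin ((t - t₀) / (r / β))) = t
      rw [sin_arcsin h1.le h2.le, mul_div_cancel₀ _ (div_pos hr hβ).ne']
      ring
  rw [← him, lintegral_image_eq_lintegral_abs_deriv_mul measurableSet_Ioo
    (f' := fun θ => r / β * cos θ)
    (fun θ _ => (((hasDerivAt_sin θ).const_mul (r / β)).const_add t₀).hasDerivWithinAt)]
  · have hc : ∀ θ ∈ Ioo (-(π / 2)) (π / 2), ENNReal.ofReal |r / β * cos θ| *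
        ENNReal.ofReal (√(r ^ 2 - (β * (t₀ + r / β * sin θ - t₀)) ^ 2))⁻¹
          = ENNReal.ofReal (1 / β) := fun θ hθ => by
      have hcos : 0 < cos θ := cos_pos_of_mem_Ioo hθ
      have e : r ^ 2 - (β * (t₀ + r / β * sin θ - t₀)) ^ 2 = (r * cos θ) ^ 2 := by
        rw [add_sub_cancel_left, ← mul_assoc, mul_div_cancel₀ _ hβ.ne']
        linear_combination -r ^ 2 * sin_sq_add_cos_sq θ
      rw [e, sqrt_sq (by positivity), abs_of_pos (by positivity),
        ← ENNReal.ofReal_mul (by positivity)]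
      congr 1
      field_simp
    rw [setLIntegral_congr_fun measurableSet_Ioo hc, setLIntegral_const, volume_Ioo,
      ← ENNReal.ofReal_mul (by positivity)]
    congr 1
    ring
  · intro x hx y hy h
    refine injOn_sin (Ioo_subset_Icc_self hx) (Ioo_subset_Icc_self hy) ?_
    simpa [hr.ne', hβ.ne'] using h

/-- The density of the unit ball all of whose lines have the same mass. -/
noncomputable def dens (x : R3) : ℝ≥0∞ :=
  (ball (0 : R3) 1).indicator (fun x => ENNReal.ofReal (√(1 - ‖x‖ ^ 2))⁻¹) x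

lemma measurable_dens : Measurable dens := by
  unfold dens
  exact (by fun_prop : Measurable fun x : R3 => ENNReal.ofReal (√(1 - ‖x‖ ^ 2))⁻¹).indicator
    measurableSet_ball

lemma lintegral_line (a : R3) {b : R3} (hb : b ≠ 0) :
    ∫⁻ t : ℝ, dens (a + t • b) =
      if ‖a‖ ^ 2 - ⟪a, b⟫ ^ 2 / ‖b‖ ^ 2 < 1 then ENNReal.ofReal (π / ‖b‖) else 0 := by
  set β := ‖b‖ with hβ
  have hβ0 : 0 < β := norm_pos_iff.2 hb
  set h := ‖a‖ ^ 2 - ⟪a, b⟫ ^ 2 / β ^ 2 with hh
  set t₀ := -⟪a, b⟫ / β ^ 2 with ht₀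
  have e : ∀ t : ℝ, ‖a + t • b‖ ^ 2 = h + (β * (t - t₀)) ^ 2 := fun t => by
    rw [norm_add_sq_real, norm_smul, real_inner_smul_right, mul_pow, Real.norm_eq_abs, sq_abs,
      hh, ht₀, ← hβ]
    field_simp
    ring
  have hball : ∀ t : ℝ, a + t • b ∈ ball (0 : R3) 1 ↔ h + (β * (t - t₀)) ^ 2 < 1 := fun t => by
    rw [mem_ball_zero_iff, ← e, sq_lt_one_iff₀ (norm_nonneg _)]
  split_ifs with h1
  · set r := √(1 - h) with hr
    have hr0 : 0 < r := sqrt_pos.2 (by linarith)
    have hr2 : r ^ 2 = 1 - h := sq_sqrt (by linarith)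
    rw [← lintegral_arc hβ0 hr0 t₀, ← lintegral_indicator measurableSet_Ioo]
    refine lintegral_congr fun t => ?_
    have hiff : t ∈ Ioo (t₀ - r / β) (t₀ + r / β) ↔ a + t • b ∈ ball (0 : R3) 1 := by
      rw [hball, ← lt_sub_iff_add_lt', ← hr2, sq_lt_sq, abs_mul, abs_of_pos hβ0, abs_of_pos hr0,
        mul_comm, ← lt_div_iff₀ hβ0, abs_sub_lt_iff, mem_Ioo]
      constructor <;> rintro ⟨u, v⟩ <;> constructor <;> linarith
    by_cases ht : t ∈ Ioo (t₀ - r / β) (t₀ + r / β)
    · rw [dens, indicator_of_mem ht, indicator_of_mem (hiff.1 ht), e, hr2]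
      congr 2
      ring_nf
    · rw [dens, indicator_of_notMem ht, indicator_of_notMem (mt hiff.2 ht)]
  · refine (lintegral_congr fun t => ?_).trans lintegral_zero
    refine indicator_of_notMem (fun ht => h1 ?_) _
    have := (hball t).1 ht
    nlinarith [sq_nonneg (β * (t - t₀))]

/-- Orthonormal coordinates along a direction preserve the volume. -/
lemma measurePreserving_chart {u : R3} (hu : ‖u‖ = 1) (e : R2 →ₗᵢ[ℝ] R3)
    (he : ∀ y, ⟪e y, u⟫ = 0) :
    MeasurePreserving (fun q : R2 × ℝ => e q.1 + q.2 • u)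
      ((volume : Measure R2).prod (volume : Measure ℝ)) (volume : Measure R3) := by
  let g : WithLp 2 (R2 × ℝ) →ₗᵢ[ℝ] R3 :=
    { toLinearMap := (e.toLinearMap.coprod (LinearMap.toSpanSingleton ℝ R3 u)).comp
        (WithLp.linearEquiv 2 ℝ (R2 × ℝ)).toLinearMap
      norm_map' := fun q => by
        refine (pow_left_inj₀ (norm_nonneg _) (norm_nonneg _) two_ne_zero).1 ?_
        rw [WithLp.prod_norm_sq_eq_of_L2]
        show ‖e q.fst + q.snd • u‖ ^ 2 = _
        rw [norm_add_sq_real, real_inner_smul_right, he, norm_smul, hu, e.norm_map,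
          Real.norm_eq_abs]
        ring }
  have hrank : Module.finrank ℝ (WithLp 2 (R2 × ℝ)) = Module.finrank ℝ R3 := by
    rw [(WithLp.linearEquiv 2 ℝ (R2 × ℝ)).finrank_eq]
    simp
  exact (g.toLinearIsometryEquiv hrank).measurePreserving.comp
    (WithLp.volume_preserving_toLp R2 ℝ)

lemma lintegral_dens : ∫⁻ x, dens x = ENNReal.ofReal (π ^ 2) := by
  let e : R2 →ₗᵢ[ℝ] R3 :=
    { toLinearMap :=
        { toFun := fun y => !₂[y 0, y 1, 0]
          map_add' := fun x y => by ext i; fin_cases i <;> simp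
          map_smul' := fun c x => by ext i; fin_cases i <;> simp }
      norm_map' := fun y => by
        simp [EuclideanSpace.norm_eq, Fin.sum_univ_three, Fin.sum_univ_two] }
  set u : R3 := EuclideanSpace.single 2 1 with hu
  have hu1 : ‖u‖ = 1 := by simp [hu]
  have he : ∀ y, ⟪e y, u⟫ = 0 := fun y => by
    simp [hu, e, PiLp.inner_apply]
  have hu0 : u ≠ 0 := fun h => by simp [h] at hu1
  have hmp := measurePreserving_chart hu1 e he
  rw [← hmp.lintegral_comp measurable_dens,
    lintegral_prod (fun z : R2 × ℝ => dens (e z.1 + z.2 • u))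
      (measurable_dens.comp hmp.measurable).aemeasurable]
  simp only [lintegral_line _ hu0, he, e.norm_map, hu1]
  have : (fun y : R2 => if ‖y‖ ^ 2 - (0 : ℝ) ^ 2 / 1 ^ 2 < 1 then ENNReal.ofReal (π / 1) else 0)
      = (ball (0 : R2) 1).indicator fun _ => ENNReal.ofReal π := by
    funext y
    by_cases hy : ‖y‖ < 1 <;> simp [hy]
  rw [this, lintegral_indicator measurableSet_ball, setLIntegral_const,
    EuclideanSpace.volume_ball_fin_two]
  simp [sq, ENNReal.ofReal_mul pi_pos.le]

/-- Cylinders covering the open ellipsoid `c + L (ball)` have base areas adding up to at least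
`π |det L| / M`, where `M` bounds the stretch of `L`. -/
theorem ellipsoid_cover (c : R3) (L : R3 →ₗ[ℝ] R3) (hL : LinearMap.det L ≠ 0) {M : ℝ}
    (hM : ∀ v, ‖L v‖ ≤ M * ‖v‖) (m : ℕ) (u : Fin m → R3)
    (e : Fin m → R2 →ₗᵢ[ℝ] R3) (B : Fin m → Set R2) (hB : ∀ i, MeasurableSet (B i))
    (hu : ∀ i, ‖u i‖ = 1) (he : ∀ i y, ⟪e i y, u i⟫ = 0)
    (hcov : ∀ v, ‖v‖ < 1 → ∃ i, ∃ y ∈ B i, ∃ t : ℝ, c + L v = e i y + t • u i) :
    ENNReal.ofReal (π * |LinearMap.det L|) ≤ ENNReal.ofReal M * ∑ i, volume (B i) := by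
  set Le := LinearMap.equivOfDetNeZero L hL with hLe
  have hLem : Measurable fun x => Le.symm x :=
    Le.symm.toLinearMap.continuous_of_finiteDimensional.measurable
  have hLe1 : ∀ x, L (Le.symm x) = x := fun x => Le.apply_symm_apply x
  have hLe2 : ∀ x, Le.symm (L x) = x := fun x => Le.symm_apply_apply x
  set F : R3 → ℝ≥0∞ := fun x => dens (Le.symm (x - c)) with hF
  have hFm : Measurable F := measurable_dens.comp (hLem.comp (measurable_id.sub_const c))
  have htot : ∫⁻ x, F x = ENNReal.ofReal |LinearMap.det L| * ENNReal.ofReal (π ^ 2) := by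
    rw [lintegral_sub_right_eq_self (fun x => dens (Le.symm x)) c]
    have h := Measure.map_linearMap_addHaar_eq_smul_addHaar (volume : Measure R3) hL
    have h' : ∫⁻ x, dens (Le.symm x) ∂(Measure.map L volume) = ∫⁻ x, dens x := by
      rw [lintegral_map (f := fun x => dens (Le.symm x)) (measurable_dens.comp hLem)
        L.continuous_of_finiteDimensional.measurable]
      simp only [hLe2]
    rw [h, lintegral_smul_measure, lintegral_dens, smul_eq_mul] at h'
    rw [← h', ← mul_assoc, ← ENNReal.ofReal_mul (abs_nonneg _), ← abs_mul, mul_inv_cancel₀ hL,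
      abs_one, ENNReal.ofReal_one, one_mul]
  let cyl : Fin m → R3 → ℝ≥0∞ := fun i =>
    {x | ∃ y ∈ B i, ∃ t : ℝ, x = e i y + t • u i}.indicator F
  have hline : ∀ i y, ∫⁻ t : ℝ, F (e i y + t • u i) ≤ ENNReal.ofReal (M * π) := by
    intro i y
    have e1 : ∀ t : ℝ, Le.symm (e i y + t • u i - c) = Le.symm (e i y - c) + t • Le.symm (u i) :=
      fun t => by rw [← map_smul, ← map_add]; congr 1; abel
    have h1 : 1 ≤ M * ‖Le.symm (u i)‖ := by
      have := hM (Le.symm (u i))
      rwa [hLe1, hu] at this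
    have hb : Le.symm (u i) ≠ 0 := fun h => by rw [h, norm_zero, mul_zero] at h1; linarith
    simp only [hF, e1, lintegral_line _ hb]
    split_ifs
    · refine ENNReal.ofReal_le_ofReal ?_
      rw [div_le_iff₀ (norm_pos_iff.2 hb)]
      nlinarith [pi_pos]
    · exact bot_le
  have hset : ∀ i, MeasurableSet {x : R3 | ∃ y ∈ B i, ∃ t : ℝ, x = e i y + t • u i} := by
    intro i
    have hp : {x : R3 | ∃ y ∈ B i, ∃ t : ℝ, x = e i y + t • u i}
        = (fun x : R3 => (!₂[⟪x, e i (EuclideanSpace.single 0 1)⟫,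
            ⟪x, e i (EuclideanSpace.single 1 1)⟫] : R2)) ⁻¹' B i := by
      have hproj : ∀ (y : R2) (t : ℝ) k,
          ⟪e i y + t • u i, e i (EuclideanSpace.single k 1)⟫ = y k := fun y t k => by
        rw [inner_add_left, real_inner_smul_left, real_inner_comm (e i _) (u i), he i,
          LinearIsometry.inner_map_map]
        simp [PiLp.inner_apply]
      ext x
      constructor
      · rintro ⟨y, hy, t, rfl⟩
        show (!₂[_, _] : R2) ∈ B i
        rw [hproj, hproj]
        convert hy using 1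
        ext k
        fin_cases k <;> simp
      · intro hx
        obtain ⟨⟨y, t⟩, hyt⟩ : ∃ q : R2 × ℝ, e i q.1 + q.2 • u i = x := by
          let G : R2 × ℝ →ₗ[ℝ] R3 :=
            (e i).toLinearMap.coprod (LinearMap.toSpanSingleton ℝ R3 (u i))
          have hinj : Function.Injective G := by
            rw [injective_iff_map_eq_zero]
            intro q hq
            change e i q.1 + q.2 • u i = 0 at hq
            have h2 := congrArg (fun z => ⟪z, u i⟫) hq
            simp only [inner_add_left, real_inner_smul_left, he, real_inner_self_eq_norm_sq, hu,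
              inner_zero_left, zero_add, one_pow, mul_one] at h2
            rw [h2, zero_smul, add_zero] at hq
            exact Prod.ext ((e i).injective (by simpa using hq)) h2
          exact (LinearMap.injective_iff_surjective_of_finrank_eq_finrank (by simp)).1 hinj x
        refine ⟨y, ?_, t, hyt.symm⟩
        simp only [mem_preimage, ← hyt, hproj] at hx
        convert hx using 1
        ext k
        fin_cases k <;> simp
    rw [hp]
    exact (hB i).preimage (by fun_prop)
  have hcyl : ∀ i, ∫⁻ x, cyl i x ≤ ENNReal.ofReal (M * π) * volume (B i) := by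
    intro i
    have hmp := measurePreserving_chart (hu i) (e i) (he i)
    rw [← hmp.lintegral_comp (hFm.indicator (hset i)),
      lintegral_prod (fun z : R2 × ℝ => cyl i (e i z.1 + z.2 • u i))
        ((hFm.indicator (hset i)).comp hmp.measurable).aemeasurable,
      ← setLIntegral_const, ← lintegral_indicator (hB i)]
    refine lintegral_mono fun y => ?_
    by_cases hy : y ∈ B i
    · rw [indicator_of_mem hy]
      exact (lintegral_mono fun t => indicator_le_self _ _ _).trans (hline i y)
    · rw [indicator_of_notMem hy]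
      refine le_of_eq ((lintegral_congr fun t => ?_).trans lintegral_zero)
      refine indicator_of_notMem (fun hmem => hy ?_) _
      obtain ⟨y', hy', t', h⟩ := hmem
      have h2 := congrArg (fun z => ⟪z, u i⟫) h
      simp only [inner_add_left, real_inner_smul_left, he, real_inner_self_eq_norm_sq, hu,
        zero_add, one_pow, mul_one] at h2
      rw [h2, add_left_inj] at h
      have : y = y' := (e i).injective h
      rwa [this]
  have hsum : ∫⁻ x, F x ≤ ∑ i, ∫⁻ x, cyl i x := by
    rw [← lintegral_finsetSum _ fun i _ => hFm.indicator (hset i)]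
    refine lintegral_mono fun x => ?_
    by_cases hx : ‖Le.symm (x - c)‖ < 1
    · obtain ⟨i, y, hy, t, hyt⟩ := hcov _ hx
      rw [hLe1, add_sub_cancel] at hyt
      refine le_trans (le_of_eq ?_) (Finset.single_le_sum (f := fun i => cyl i x)
        (fun _ _ => bot_le) (Finset.mem_univ i))
      exact (indicator_of_mem (show x ∈ {x | ∃ y ∈ B i, ∃ t : ℝ, x = e i y + t • u i} from
        ⟨y, hy, t, hyt⟩) F).symm
    · rw [show F x = 0 from indicator_of_notMem (fun h => hx (mem_ball_zero_iff.1 h)) _]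
      exact bot_le
  have h := (htot ▸ hsum).trans (Finset.sum_le_sum fun i _ => hcyl i)
  rw [← Finset.mul_sum, ← ENNReal.ofReal_mul (abs_nonneg _),
    show |LinearMap.det L| * π ^ 2 = π * (π * |LinearMap.det L|) by ring,
    ENNReal.ofReal_mul pi_pos.le (q := π * |LinearMap.det L|), mul_comm M π,
    ENNReal.ofReal_mul pi_pos.le (q := M), mul_assoc] at h
  exact (ENNReal.mul_le_mul_iff_right (ENNReal.ofReal_pos.2 pi_pos).ne' ENNReal.ofReal_ne_top).1 h

end Vale.Agent.P243.Half
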