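import Vale.Agent.P084.Finite.Frame

/-!
# The ellipsoid of largest minimal shadow ratio

Among the maps `T` carrying the unit ball into the body whose polar is `Y` we maximise
`det T ^ 2 / tr (Tᵀ T)`. The first order condition writes `1 - TᵀT / tr (TᵀT)` as a combination of
contact points; averaging `|T (u × u')| ^ 2` over pairs of contact points gives a pair of polar
vectors with a large cross product.
-/

namespace Vale.Agent.P243.Half

open Matrix Set Filter
open scoped Topology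

/-- Vectors in coordinates. -/
abbrev V3 := Fin 3 → ℝ

/-- Three by three matrices. -/
abbrev M3 := Matrix (Fin 3) (Fin 3) ℝ

/-- The squared Frobenius norm. -/
def frob (T : M3) : ℝ := ∑ i, ∑ j, T i j ^ 2

lemma frob_eq_trace (T : M3) : frob T = trace (Tᵀ * T) := by
  simp only [frob, trace, Matrix.diag, mul_apply, transpose_apply, sq]
  exact Finset.sum_comm

lemma frob_nonneg (T : M3) : 0 ≤ frob T :=
  Finset.sum_nonneg fun _ _ => Finset.sum_nonneg fun _ _ => sq_nonneg _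

lemma abs_entry_le (T : M3) (i j : Fin 3) : |T i j| ≤ Real.sqrt (frob T) := by
  refine Real.abs_le_sqrt ?_
  refine le_trans ?_ (Finset.single_le_sum (f := fun i => ∑ j, T i j ^ 2)
    (fun _ _ => Finset.sum_nonneg fun _ _ => sq_nonneg _) (Finset.mem_univ i))
  exact Finset.single_le_sum (f := fun j => T i j ^ 2) (fun _ _ => sq_nonneg _) (Finset.mem_univ j)

lemma det_sq_le (T : M3) : T.det ^ 2 ≤ 36 * frob T ^ 3 := by
  set r := Real.sqrt (frob T) with hr
  have hr0 : 0 ≤ r := Real.sqrt_nonneg _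
  have h := abs_entry_le T
  have p : ∀ i j k l m n, |T i j * T k l * T m n| ≤ r * r * r := fun i j k l m n => by
    rw [abs_mul, abs_mul]
    exact mul_le_mul (mul_le_mul (h i j) (h k l) (abs_nonneg _) hr0) (h m n) (abs_nonneg _)
      (mul_nonneg hr0 hr0)
  have hd : |T.det| ≤ 6 * (r * r * r) := by
    rw [det_fin_three, abs_le]
    constructor <;>
      linarith [abs_le.1 (p 0 0 1 1 2 2), abs_le.1 (p 0 0 1 2 2 1), abs_le.1 (p 0 1 1 0 2 2),
        abs_le.1 (p 0 1 1 2 2 0), abs_le.1 (p 0 2 1 0 2 1), abs_le.1 (p 0 2 1 1 2 0)]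
  have hr2 : r * r = frob T := Real.mul_self_sqrt (frob_nonneg T)
  have h2 := mul_self_le_mul_self (abs_nonneg _) hd
  rw [abs_mul_abs_self] at h2
  calc T.det ^ 2 ≤ 36 * (r * r) ^ 3 := by linarith
    _ = _ := by rw [hr2]

/-- `T` carries the unit ball into the body with polar `Y`. -/
def Feasible (Y : Set V3) (T : M3) : Prop := ∀ y ∈ Y, (y ᵥ* T) ⬝ᵥ (y ᵥ* T) ≤ 1

/-- `T` maximises `det T ^ 2 / frob T` among feasible maps. -/
def Maximal (Y : Set V3) (T : M3) : Prop :=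
  Feasible Y T ∧ T.det ≠ 0 ∧ ∀ T', Feasible Y T' → T'.det ^ 2 * frob T ≤ T.det ^ 2 * frob T'

lemma exists_maximal {Y : Set V3} (hY : IsCompact Y) {ε : ℝ} (hε : 0 < ε)
    (hεY : ∀ k : Fin 3, Pi.single k ε ∈ Y) : ∃ T, Maximal Y T := by
  obtain ⟨R, hR0, hR⟩ : ∃ R : ℝ, 0 < R ∧ ∀ y ∈ Y, y ⬝ᵥ y ≤ R := by
    obtain ⟨R, hR⟩ := hY.bddAbove_image (f := fun y : V3 => y ⬝ᵥ y) (by fun_prop)
    exact ⟨max R 1, by positivity, fun y hy => (hR ⟨y, hy, rfl⟩).trans (le_max_left _ _)⟩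
  set c : ℝ := (Real.sqrt R)⁻¹ with hc
  have hc0 : 0 < c := inv_pos.2 (Real.sqrt_pos.2 hR0)
  set T0 : M3 := c • 1 with hT0
  have hT0f : Feasible Y T0 := fun y hy => by
    simp only [hT0, vecMul_smul, vecMul_one, smul_dotProduct, dotProduct_smul, smul_eq_mul]
    rw [← mul_assoc, hc, ← mul_inv, Real.mul_self_sqrt hR0.le, inv_mul_le_iff₀ hR0, mul_one]
    exact hR y hy
  have hd0 : T0.det ≠ 0 := by simp [hT0, hc0.ne']
  have hf0 : 0 < frob T0 := by
    by_contra h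
    have h' : frob T0 = 0 := le_antisymm (not_lt.1 h) (frob_nonneg _)
    have := det_sq_le T0
    rw [h'] at this
    exact hd0 (pow_eq_zero_iff two_ne_zero |>.1 (le_antisymm (by simpa using this) (sq_nonneg _)))
  set F : M3 → ℝ := fun T => T.det ^ 2 / frob T with hF
  have hF0 : 0 < F T0 := div_pos (by positivity) hf0
  set δ := min (frob T0) (Real.sqrt (F T0 / 36)) with hδ
  have hδ0 : 0 < δ := lt_min hf0 (Real.sqrt_pos.2 (by linarith))
  have hfc : Continuous frob := by unfold frob; fun_prop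
  set S : Set M3 := {T | Feasible Y T ∧ δ ≤ frob T} with hS
  have hScl : IsClosed S := by
    have : S = (⋂ y ∈ Y, {T : M3 | (y ᵥ* T) ⬝ᵥ (y ᵥ* T) ≤ 1}) ∩ {T | δ ≤ frob T} := by
      ext T; simp [hS, Feasible]
    rw [this]
    refine (isClosed_biInter fun y _ => isClosed_le ?_ continuous_const).inter
      (isClosed_le continuous_const hfc)
    fun_prop
  have hScpt : IsCompact S := by
    have hbox : IsCompact (Set.univ.pi fun _ : Fin 3 => Set.univ.pi fun _ : Fin 3 =>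
        Icc (-ε⁻¹) ε⁻¹ : Set M3) :=
      isCompact_univ_pi fun _ => isCompact_univ_pi fun _ => isCompact_Icc
    refine hbox.of_isClosed_subset hScl fun T hT k _ j _ => ?_
    have h := hT.1 _ (hεY k)
    simp [dotProduct, vecMul, Pi.single_apply] at h
    have hj : ε * T k j * (ε * T k j) ≤ 1 := le_trans
      (Finset.single_le_sum (f := fun j => ε * T k j * (ε * T k j)) (fun i _ => mul_self_nonneg _)
        (Finset.mem_univ j)) h
    have : (T k j) ^ 2 ≤ (ε⁻¹) ^ 2 := by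
      rw [inv_pow, ← one_div, le_div_iff₀ (by positivity)]
      nlinarith
    exact abs_le.1 (abs_le_of_sq_le_sq this (by positivity))
  have hT0S : T0 ∈ S := ⟨hT0f, min_le_left _ _⟩
  obtain ⟨T, hT, hmax⟩ := hScpt.exists_isMaxOn ⟨T0, hT0S⟩ (f := F)
    ((Continuous.continuousOn (by fun_prop)).div hfc.continuousOn
      fun T hT => (hδ0.trans_le hT.2).ne')
  have hFT : F T0 ≤ F T := hmax hT0S
  have hfT : 0 < frob T := hδ0.trans_le hT.2
  refine ⟨T, hT.1, fun h => ?_, fun T' hT' => ?_⟩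
  · have : F T = 0 := by simp [hF, h]
    linarith
  rcases le_or_gt δ (frob T') with h | h
  · have h1 : F T' ≤ F T := hmax ⟨hT', h⟩
    rwa [hF, div_le_div_iff₀ (hδ0.trans_le h) hfT] at h1
  · have h1 := det_sq_le T'
    have h2 : frob T' ^ 2 ≤ F T0 / 36 := by
      have h3 : frob T' ≤ Real.sqrt (F T0 / 36) := h.le.trans (min_le_right _ _)
      calc frob T' ^ 2 ≤ Real.sqrt (F T0 / 36) ^ 2 := pow_le_pow_left₀ (frob_nonneg _) h3 2
        _ = _ := Real.sq_sqrt (by linarith)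
    have h4 : F T * frob T = T.det ^ 2 := div_mul_cancel₀ _ hfT.ne'
    have h5 : T'.det ^ 2 ≤ F T * frob T' := by
      nlinarith [frob_nonneg T']
    calc T'.det ^ 2 * frob T ≤ F T * frob T' * frob T := mul_le_mul_of_nonneg_right h5 hfT.le
      _ = T.det ^ 2 * frob T' := by rw [← h4]; ring

/-- A maximal map whose Gram matrix is diagonal. -/
lemma exists_maximal_diagonal {Y : Set V3} (hY : IsCompact Y) {ε : ℝ} (hε : 0 < ε)
    (hεY : ∀ k : Fin 3, Pi.single k ε ∈ Y) :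
    ∃ T, Maximal Y T ∧ ∃ σ : V3, Tᵀ * T = diagonal σ := by
  obtain ⟨T, hf, hd, hmax⟩ := exists_maximal hY hε hεY
  have hH : (Tᵀ * T).IsHermitian := by
    simp [Matrix.IsHermitian, conjTranspose_eq_transpose_of_trivial, transpose_mul]
  set O : M3 := (hH.eigenvectorUnitary : M3) with hO
  have hO1 : Oᵀ * O = 1 := by
    have := Unitary.coe_star_mul_self hH.eigenvectorUnitary
    simpa [Matrix.star_eq_conjTranspose, conjTranspose_eq_transpose_of_trivial, hO] using this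
  have hO2 : O * Oᵀ = 1 := by
    have := Unitary.coe_mul_star_self hH.eigenvectorUnitary
    simpa [Matrix.star_eq_conjTranspose, conjTranspose_eq_transpose_of_trivial, hO] using this
  have hdiag : (T * O)ᵀ * (T * O) = diagonal hH.eigenvalues := by
    have h := hH.conjStarAlgAut_star_eigenvectorUnitary
    simp [Matrix.star_eq_conjTranspose, conjTranspose_eq_transpose_of_trivial] at h
    rw [transpose_mul, ← Matrix.mul_assoc, Matrix.mul_assoc Oᵀ, hO]
    exact h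
  have hdet : (T * O).det ^ 2 = T.det ^ 2 := by
    have h := congrArg Matrix.det hO1
    rw [det_mul, det_transpose, det_one] at h
    rw [det_mul, mul_pow, sq O.det, h, mul_one]
  have hfr : frob (T * O) = frob T := by
    rw [frob_eq_trace, frob_eq_trace, transpose_mul, ← Matrix.mul_assoc, Matrix.mul_assoc Oᵀ,
      trace_mul_comm, ← Matrix.mul_assoc, hO2, Matrix.one_mul]
  refine ⟨T * O, ⟨fun y hy => ?_, fun h => hd (pow_eq_zero_iff two_ne_zero |>.1
    (by rw [← hdet, h]; simp)), fun T' hT' => by rw [hdet, hfr]; exact hmax T' hT'⟩, _, hdiag⟩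
  rw [← vecMul_vecMul, ← dotProduct_mulVec, ← mulVec_transpose (A := O), mulVec_mulVec, hO2,
    one_mulVec]
  exact hf y hy

/-- The first order condition at a maximal map. -/
lemma perturb {Y : Set V3} (hY : IsCompact Y) {T : M3} (hT : Maximal Y T) {σ : V3}
    (hσ : Tᵀ * T = diagonal σ) (X : M3)
    (hX : ∀ y ∈ Y, (y ᵥ* T) ⬝ᵥ (y ᵥ* T) = 1 → (y ᵥ* T) ⬝ᵥ ((y ᵥ* T) ᵥ* X) < 0) :
    ∑ i, (frob T - σ i) * X i i ≤ 0 := by
  obtain ⟨hf, hd, hmax⟩ := hT
  have hev : ∀ᶠ s in 𝓝 (0 : ℝ), ∀ y ∈ Y, y ∈ Y → 0 < s → (y ᵥ* T) ⬝ᵥ (y ᵥ* T) - 1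
      + s * (2 * ((y ᵥ* T) ⬝ᵥ ((y ᵥ* T) ᵥ* X))
        + s * (((y ᵥ* T) ᵥ* X) ⬝ᵥ ((y ᵥ* T) ᵥ* X))) ≤ 0 := by
    refine hY.eventually_forall_of_forall_eventually fun y hy => ?_
    by_cases h1 : (y ᵥ* T) ⬝ᵥ (y ᵥ* T) = 1
    · have hc : Continuous fun z : ℝ × V3 => 2 * ((z.2 ᵥ* T) ⬝ᵥ ((z.2 ᵥ* T) ᵥ* X))
          + z.1 * (((z.2 ᵥ* T) ᵥ* X) ⬝ᵥ ((z.2 ᵥ* T) ᵥ* X)) := by fun_prop
      have he := (hc.tendsto (0, y)).eventually_lt_const (u := 0) (by
        have := hX y hy h1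
        simp only [zero_mul, add_zero]
        linarith)
      filter_upwards [he] with z hz
      intro hzY hs
      nlinarith [mul_neg_of_pos_of_neg hs hz, hf _ hzY]
    · have hlt : (y ᵥ* T) ⬝ᵥ (y ᵥ* T) < 1 := lt_of_le_of_ne (hf y hy) h1
      have hc : Continuous fun z : ℝ × V3 => (z.2 ᵥ* T) ⬝ᵥ (z.2 ᵥ* T) - 1
          + z.1 * (2 * ((z.2 ᵥ* T) ⬝ᵥ ((z.2 ᵥ* T) ᵥ* X))
            + z.1 * (((z.2 ᵥ* T) ᵥ* X) ⬝ᵥ ((z.2 ᵥ* T) ᵥ* X))) := by fun_prop
      filter_upwards [(hc.tendsto (0, y)).eventually_lt_const (u := 0) (by simpa using hlt)]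
        with z hz
      intro _ _
      exact hz.le
  by_contra hpos
  push Not at hpos
  set t1 := X 0 0 + X 1 1 + X 2 2 with ht1
  set g : ℝ → ℝ := fun s => t1 + s * (X 0 0 * X 1 1 - X 0 1 * X 1 0 + X 0 0 * X 2 2
    - X 0 2 * X 2 0 + X 1 1 * X 2 2 - X 1 2 * X 2 1) + s ^ 2 * X.det with hg
  set φ : ℝ → ℝ := fun s => frob T * (g s * (2 + s * g s)) - 2 * ∑ i, σ i * X i i
    - s * ∑ i, ∑ j, σ i * X i j ^ 2 with hφ
  have hφc : Continuous φ := by fun_prop
  have hφ0 : 0 < φ 0 := by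
    simp only [hφ, hg, ht1, Fin.sum_univ_three] at hpos ⊢
    linarith
  obtain ⟨s, hs1, hs2, hs0⟩ := ((hev.filter_mono nhdsWithin_le_nhds).and
    ((((hφc.tendsto 0).eventually_const_lt hφ0).filter_mono nhdsWithin_le_nhds).and
      self_mem_nhdsWithin) : ∀ᶠ s in 𝓝[>] (0 : ℝ), _).exists
  replace hs0 : 0 < s := hs0
  set Z : M3 := 1 + s • X with hZ
  have hfeas : Feasible Y (T * Z) := by
    intro y hy
    have := hs1 y hy hy hs0
    simp only [← vecMul_vecMul, hZ, vecMul_add, vecMul_one, vecMul_smul, add_dotProduct,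
      dotProduct_add, smul_dotProduct, dotProduct_smul, smul_eq_mul]
    rw [dotProduct_comm ((y ᵥ* T) ᵥ* X) (y ᵥ* T)]
    linarith
  have hdZ : Z.det = 1 + s * g s := by
    simp only [hZ, hg, ht1, det_fin_three, Matrix.add_apply, Matrix.smul_apply, smul_eq_mul,
      one_apply, Fin.reduceEq, if_true, if_false]
    ring
  have hfrob : frob T = ∑ i, σ i := by rw [frob_eq_trace, hσ, trace_diagonal]
  have hfZ : frob (T * Z) = frob T + s * (2 * ∑ i, σ i * X i i)
      + s ^ 2 * ∑ i, ∑ j, σ i * X i j ^ 2 := by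
    rw [frob_eq_trace (T * Z), transpose_mul, Matrix.mul_assoc, ← Matrix.mul_assoc Tᵀ, hσ, hfrob]
    simp only [trace, Matrix.diag, mul_apply, transpose_apply, diagonal_apply, ite_mul, zero_mul,
      Finset.sum_ite_eq, Finset.mem_univ, if_true, hZ, Matrix.add_apply, Matrix.smul_apply,
      one_apply, smul_eq_mul, Fin.sum_univ_three, Fin.reduceEq, if_false]
    ring
  have h := hmax _ hfeas
  rw [det_mul, mul_pow, hdZ, hfZ, mul_assoc] at h
  have h' := le_of_mul_le_mul_left h (by positivity)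
  have : s * φ s ≤ 0 := by
    simp only [hφ]
    linarith [show (1 + s * g s) ^ 2 * frob T - frob T = s * (frob T * (g s * (2 + s * g s))) by
      ring]
  exact absurd this (not_le.2 (mul_pos hs0 hs2))

lemma cubic {a b c : ℝ} (ha : 0 ≤ a) (hb : 0 ≤ b) (hc : 0 ≤ c) (h : a + b + c = 1) :
    2 * (Real.sqrt 2 - 1) * a ≤ a * (1 - b) * (1 - c) + b * (1 - a) * (1 - c)
      + c * (1 - a) * (1 - b) := by
  have h2 : Real.sqrt 2 * Real.sqrt 2 = 2 := Real.mul_self_sqrt (by norm_num)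
  have h3 : Real.sqrt 2 ≤ 141422 / 100000 := by
    rw [Real.sqrt_le_iff]; norm_num
  have h4 : 141421 / 100000 ≤ Real.sqrt 2 := Real.le_sqrt_of_sq_le (by norm_num)
  have e : a * (1 - b) * (1 - c) + b * (1 - a) * (1 - c) + c * (1 - a) * (1 - b)
      = a ^ 2 + (1 - a) ^ 2 + (3 * a - 2) * (b * c) := by
    obtain rfl : c = 1 - a - b := by linarith
    ring
  rw [e]
  rcases le_total 0 (3 * a - 2) with h0 | h0
  · nlinarith [sq_nonneg (Real.sqrt 2 * a - 1), mul_nonneg h0 (mul_nonneg hb hc)]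
  · have hm : b * c ≤ (1 - a) ^ 2 / 4 := by nlinarith [sq_nonneg (b - c)]
    have hm' := mul_le_mul_of_nonpos_left hm h0
    nlinarith [mul_nonneg ha (sq_nonneg (a - 693 / 1000)), sq_nonneg (a - 693 / 1000)]

lemma combo {ι : Type*} [Fintype ι] (w : ι → ℝ) (u : ι → V3) {σ p : V3} (j k : Fin 3)
    (hjk : j ≠ k) (hw : ∀ i l, ∑ a, w a * (u a i * u a l) = if i = l then p i else 0) :
    ∑ a, ∑ b, w a * w b * (σ 0 * (u a j * u b k - u a k * u b j) ^ 2)
      = σ 0 * (2 * p j * p k) := by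
  have e : ∀ a b, w a * w b * (σ 0 * (u a j * u b k - u a k * u b j) ^ 2)
      = σ 0 * ((w a * (u a j * u a j)) * (w b * (u b k * u b k)))
        - σ 0 * (2 * ((w a * (u a j * u a k)) * (w b * (u b j * u b k))))
        + σ 0 * ((w a * (u a k * u a k)) * (w b * (u b j * u b j))) := fun a b => by ring
  simp only [e, Finset.sum_add_distrib, Finset.sum_sub_distrib, ← Finset.mul_sum,
    ← Finset.sum_mul, hw, if_true, if_neg hjk]
  ring

/-- Two polar vectors with a large cross product. -/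
theorem exists_pair {Y : Set V3} (hY : IsCompact Y) {ε : ℝ} (hε : 0 < ε)
    (hεY : ∀ k : Fin 3, Pi.single k ε ∈ Y) :
    ∃ T : M3, T.det ≠ 0 ∧ Feasible Y T ∧ ∃ y ∈ Y, ∃ y' ∈ Y, ∀ v : V3,
      (Real.sqrt 2 - 1) * ((T *ᵥ v) ⬝ᵥ (T *ᵥ v)) ≤
        T.det ^ 2 * ((y ⨯₃ y') ⬝ᵥ (y ⨯₃ y')) * (v ⬝ᵥ v) := by
  obtain ⟨T, hT, σ, hσ⟩ := exists_maximal_diagonal hY hε hεY
  refine ⟨T, hT.2.1, hT.1, ?_⟩
  set ρ := frob T with hρ
  have hρσ : ρ = σ 0 + σ 1 + σ 2 := by
    rw [hρ, frob_eq_trace, hσ, trace_diagonal, Fin.sum_univ_three]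
  have hquad : ∀ v : V3, (T *ᵥ v) ⬝ᵥ (T *ᵥ v)
      = σ 0 * v 0 ^ 2 + σ 1 * v 1 ^ 2 + σ 2 * v 2 ^ 2 := fun v => by
    rw [dotProduct_mulVec, ← mulVec_transpose, mulVec_mulVec, hσ, dotProduct]
    simp [mulVec_diagonal, Fin.sum_univ_three]
    ring
  have hσ0 : ∀ i, 0 ≤ σ i := fun i => by
    have h : (Tᵀ * T) i i = σ i := by rw [hσ, diagonal_apply_eq]
    rw [← h, mul_apply]
    exact Finset.sum_nonneg fun j _ => by rw [transpose_apply]; exact mul_self_nonneg _
  have hρ0 : 0 < ρ := by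
    refine lt_of_le_of_ne (frob_nonneg _) fun h => hT.2.1 ?_
    have := det_sq_le T
    rw [← hρ, ← h] at this
    exact pow_eq_zero_iff two_ne_zero |>.1 (le_antisymm (by simpa using this) (sq_nonneg _))
  set O : V3 → (Fin 3 → Fin 3 → ℝ) := fun v i j => v i * v j with hO
  set p : V3 := fun i => (ρ - σ i) / (2 * ρ) with hp
  set P : Fin 3 → Fin 3 → ℝ := fun i j => if i = j then p i else 0 with hP
  set C := (fun y => O (y ᵥ* T)) '' (Y ∩ {y | (y ᵥ* T) ⬝ᵥ (y ᵥ* T) = 1}) with hC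
  have hCc : IsCompact C :=
    (hY.inter_right (isClosed_eq (by fun_prop) continuous_const)).image (by fun_prop)
  have hCne : C.Nonempty := by
    by_contra hne
    have h := perturb hY hT hσ 1 fun y hy h1 => (hne ⟨_, y, ⟨hy, h1⟩, rfl⟩).elim
    simp only [one_apply_eq, mul_one, Fin.sum_univ_three, ← hρ] at h
    linarith
  have hmem : P ∈ convexHull ℝ C := by
    by_contra hnot
    obtain ⟨f, α, hf, hfP⟩ := geometric_hahn_banach_closed_point (convex_convexHull ℝ C)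
      (P084.Finite.isCompact_convexHull_fin hCc hCne).isClosed hnot
    set X : M3 := Matrix.of fun i j => f (Pi.single i (Pi.single j 1)) with hX
    have hfX : ∀ M : Fin 3 → Fin 3 → ℝ, f M = ∑ i, ∑ j, M i j * X i j := fun M => by
      have : M = ∑ i, ∑ j, M i j • Pi.single i (Pi.single j (1 : ℝ)) := by
        ext i j
        fin_cases i <;> fin_cases j <;> simp [Fin.sum_univ_three]
      conv_lhs => rw [this]
      simp [hX]
    have h := perturb hY hT hσ (X - α • 1) fun y hy h1 => by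
      have := hf _ (subset_convexHull ℝ C ⟨y, ⟨hy, h1⟩, rfl⟩)
      rw [hfX] at this
      simp only [vecMul_sub, vecMul_smul, vecMul_one, dotProduct_sub, dotProduct_smul, h1,
        smul_eq_mul, mul_one]
      simp only [hO, Fin.sum_univ_three] at this
      generalize y ᵥ* T = v at this ⊢
      simp only [dotProduct, vecMul, Fin.sum_univ_three]
      linarith
    rw [hfX] at hfP
    simp only [hP, hp, ite_mul, zero_mul, Finset.sum_ite_eq, Finset.mem_univ, if_true,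
      Fin.sum_univ_three, div_mul_eq_mul_div, ← add_div] at hfP
    rw [lt_div_iff₀ (by positivity)] at hfP
    simp only [Matrix.sub_apply, Matrix.smul_apply, one_apply_eq, smul_eq_mul, mul_one,
      Fin.sum_univ_three, ← hρ] at h
    rw [hρσ] at h hfP
    linarith
  obtain ⟨ι, _, w, z, hw0, hw1, hz, hsum⟩ := mem_convexHull_iff_exists_fintype.1 hmem
  choose y hy hzy using hz
  set u : ι → V3 := fun a => y a ᵥ* T with hu
  have hmom : ∀ i l, ∑ a, w a * (u a i * u a l) = if i = l then p i else 0 := fun i l => by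
    have := congrFun (congrFun hsum i) l
    simpa [Finset.sum_apply, ← hzy, hO, hu, hP] using this
  set Q : ι → ι → ℝ := fun a b => T.det ^ 2 * ((y a ⨯₃ y b) ⬝ᵥ (y a ⨯₃ y b)) with hQ
  have hcof : ∀ a b, T *ᵥ (u a ⨯₃ u b) = T.det • (y a ⨯₃ y b) := fun a b => by
    ext i
    fin_cases i <;>
      simp [hu, cross_apply, det_fin_three, mulVec, vecMul, dotProduct, Fin.sum_univ_three] <;>
      ring
  have hQe : ∀ a b, Q a b = σ 0 * (u a 1 * u b 2 - u a 2 * u b 1) ^ 2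
      + σ 1 * (u a 2 * u b 0 - u a 0 * u b 2) ^ 2
      + σ 2 * (u a 0 * u b 1 - u a 1 * u b 0) ^ 2 := fun a b => by
    have := hquad (u a ⨯₃ u b)
    rw [hcof] at this
    simp only [smul_dotProduct, dotProduct_smul, smul_eq_mul] at this
    rw [hQ]
    simp [cross_apply] at this ⊢
    linarith
  have havg : ∀ k, (Real.sqrt 2 - 1) * σ k ≤ ∑ a, ∑ b, w a * w b * Q a b := by
    intro k
    simp only [hQe, mul_add, Finset.sum_add_distrib]
    rw [combo w u (σ := σ) 1 2 (by decide) hmom,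
      combo w u (σ := fun _ => σ 1) 2 0 (by decide) hmom,
      combo w u (σ := fun _ => σ 2) 0 1 (by decide) hmom]
    have hd : ∀ i, p i = (1 - σ i / ρ) / 2 := fun i => by rw [hp]; field_simp
    have hsum1 : σ 0 / ρ + σ 1 / ρ + σ 2 / ρ = 1 := by
      rw [← add_div, ← add_div, ← hρσ, div_self hρ0.ne']
    have hn : ∀ i, 0 ≤ σ i / ρ := fun i => div_nonneg (hσ0 i) hρ0.le
    have key : 2 * (Real.sqrt 2 - 1) * (σ k / ρ) ≤ σ 0 / ρ * (1 - σ 1 / ρ) * (1 - σ 2 / ρ)
        + σ 1 / ρ * (1 - σ 0 / ρ) * (1 - σ 2 / ρ) + σ 2 / ρ * (1 - σ 0 / ρ) * (1 - σ 1 / ρ) := by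
      have c0 := cubic (hn 0) (hn 1) (hn 2) hsum1
      have c1 := cubic (hn 1) (hn 0) (hn 2) (by linarith)
      have c2 := cubic (hn 2) (hn 0) (hn 1) (by linarith)
      fin_cases k <;> simp only [Fin.reduceFinMk] <;> linarith
    have hs : ∀ i, ρ * (σ i / ρ) = σ i := fun i => mul_div_cancel₀ _ hρ0.ne'
    rw [hd 0, hd 1, hd 2]
    calc (Real.sqrt 2 - 1) * σ k = ρ / 2 * (2 * (Real.sqrt 2 - 1) * (σ k / ρ)) := by
          linear_combination -(Real.sqrt 2 - 1) * hs k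
      _ ≤ _ := mul_le_mul_of_nonneg_left key (by positivity)
      _ = _ := by field_simp
  have hι : Nonempty ι := by
    by_contra h
    rw [not_nonempty_iff] at h
    simp at hw1
  obtain ⟨⟨a, b⟩, hab⟩ := Finite.exists_max fun ab : ι × ι => Q ab.1 ab.2
  refine ⟨y a, (hy a).1, y b, (hy b).1, fun v => ?_⟩
  have hle : ∀ k, (Real.sqrt 2 - 1) * σ k ≤ Q a b := fun k => by
    refine (havg k).trans ?_
    calc ∑ c, ∑ d, w c * w d * Q c d ≤ ∑ c, ∑ d, w c * w d * Q a b :=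
          Finset.sum_le_sum fun c _ => Finset.sum_le_sum fun d _ =>
            mul_le_mul_of_nonneg_left (hab (c, d)) (mul_nonneg (hw0 c) (hw0 d))
      _ = Q a b := by simp [← Finset.sum_mul, ← Finset.mul_sum, hw1]
  change _ ≤ Q a b * (v ⬝ᵥ v)
  rw [hquad v, show v ⬝ᵥ v = v 0 * v 0 + v 1 * v 1 + v 2 * v 2 by simp [dotProduct, Fin.sum_univ_three]]
  nlinarith [mul_le_mul_of_nonneg_right (hle 0) (sq_nonneg (v 0)),
    mul_le_mul_of_nonneg_right (hle 1) (sq_nonneg (v 1)),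
    mul_le_mul_of_nonneg_right (hle 2) (sq_nonneg (v 2))]

end Vale.Agent.P243.Half
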