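import Vale.Agent.P243.Half.Ellipsoid
import Vale.Agent.P243.Half.Position

/-!
# A small shadow from two functionals, and the bound for symmetric bodies
-/

namespace Vale.Agent.P243.Half

open MeasureTheory Set Real Metric Matrix
open scoped RealInnerProductSpace ENNReal Topology

lemma inner_toLp (a b : V3) :
    ⟪(WithLp.toLp 2 a : R3), WithLp.toLp 2 b⟫ = a ⬝ᵥ b := by
  simp [PiLp.inner_apply, dotProduct, mul_comm]

lemma norm_toLp_sq (a : V3) : ‖(WithLp.toLp 2 a : R3)‖ ^ 2 = a ⬝ᵥ a := by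
  rw [← real_inner_self_eq_norm_sq, inner_toLp]

/-- Two functionals with values in `[-1, 1]` on `K - c` give a shadow of area at most `4 / w`,
`w` being the area of the parallelogram they span. -/
lemma small_shadow {K : Set R3} {c η η' z : R3} {w : ℝ} (hw : 0 < w)
    (hwe : w ^ 2 = ‖η‖ ^ 2 * ‖η'‖ ^ 2 - ⟪η, η'⟫ ^ 2) (hz : z ≠ 0) (hz1 : ⟪η, z⟫ = 0)
    (hz2 : ⟪η', z⟫ = 0) (hK : ∀ x ∈ K, |⟪η, x - c⟫| ≤ 1 ∧ |⟪η', x - c⟫| ≤ 1) :
    ∃ (u : R3) (e : R2 →ₗᵢ[ℝ] R3), ‖u‖ = 1 ∧ (∀ y, ⟪e y, u⟫ = 0) ∧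
      volume {y | ∃ t : ℝ, e y + t • u ∈ K} ≤ ENNReal.ofReal (4 / w) := by
  set a := ‖η‖ with ha
  have ha0 : 0 < a := by
    refine norm_pos_iff.2 fun h => ?_
    rw [ha, h, inner_zero_left, norm_zero] at hwe
    nlinarith
  set β := w / a with hβ
  have hβ0 : 0 < β := div_pos hw ha0
  set f₀ : R3 := a⁻¹ • η with hf₀
  set α := ⟪η', f₀⟫ with hα
  set f₁ : R3 := β⁻¹ • (η' - α • f₀) with hf₁
  have hηf : η = a • f₀ := by rw [hf₀, smul_smul, mul_inv_cancel₀ ha0.ne', one_smul]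
  have hη'f : η' = α • f₀ + β • f₁ := by
    rw [hf₁, smul_inv_smul₀ hβ0.ne', add_sub_cancel]
  have h00 : ⟪f₀, f₀⟫ = 1 := by
    rw [hf₀, real_inner_smul_left, real_inner_smul_right, real_inner_self_eq_norm_sq, ← ha]
    field_simp
  have h01 : ⟪f₀, f₁⟫ = 0 := by
    rw [hf₁, real_inner_smul_right, inner_sub_right, real_inner_smul_right, h00, mul_one,
      real_inner_comm η' f₀, ← hα, sub_self, mul_zero]
  have hαe : α = a⁻¹ * ⟪η, η'⟫ := by
    rw [hα, hf₀, real_inner_smul_right, real_inner_comm η' η]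
  have h11 : ⟪f₁, f₁⟫ = 1 := by
    simp only [hf₁, inner_sub_left, inner_sub_right, real_inner_smul_left, real_inner_smul_right]
    rw [h00, real_inner_comm η' f₀, ← hα, real_inner_self_eq_norm_sq, hαe, hβ]
    field_simp
    linear_combination -hwe
  have h10 : ⟪f₁, f₀⟫ = 0 := by rw [real_inner_comm]; exact h01
  have hnorm : ∀ y : R2, ‖y 0 • f₀ + y 1 • f₁‖ ^ 2 = y 0 ^ 2 + y 1 ^ 2 := fun y => by
    rw [← real_inner_self_eq_norm_sq]
    simp only [inner_add_left, inner_add_right, real_inner_smul_left, real_inner_smul_right, h00,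
      h01, h10, h11]
    ring
  let e : R2 →ₗᵢ[ℝ] R3 :=
    { toLinearMap :=
        { toFun := fun y => y 0 • f₀ + y 1 • f₁
          map_add' := fun x y => by simp [add_smul]; abel
          map_smul' := fun r x => by simp [smul_add, smul_smul] }
      norm_map' := fun y => by
        refine (pow_left_inj₀ (norm_nonneg _) (norm_nonneg _) two_ne_zero).1 ?_
        show ‖y 0 • f₀ + y 1 • f₁‖ ^ 2 = _
        rw [hnorm, EuclideanSpace.norm_sq_eq]
        simp [Fin.sum_univ_two] }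
  set u : R3 := ‖z‖⁻¹ • z with hu
  have hu1 : ‖u‖ = 1 := by
    rw [hu, norm_smul, norm_inv, norm_norm, inv_mul_cancel₀ (norm_ne_zero_iff.2 hz)]
  have hf0z : ⟪f₀, u⟫ = 0 := by simp [hf₀, hu, real_inner_smul_left, real_inner_smul_right, hz1]
  have hf1z : ⟪f₁, u⟫ = 0 := by
    simp [hf₁, hu, real_inner_smul_left, real_inner_smul_right, inner_sub_left, hz2, hf₀, hz1]
  have hperp : ∀ y, ⟪e y, u⟫ = 0 := fun y => by
    show ⟪y 0 • f₀ + y 1 • f₁, u⟫ = 0
    simp [inner_add_left, real_inner_smul_left, hf0z, hf1z]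
  refine ⟨u, e, hu1, hperp, ?_⟩
  let A : Matrix (Fin 2) (Fin 2) ℝ := !![a, 0; α, β]
  have hdet : LinearMap.det (Matrix.toLin' A) = a * β := by
    rw [LinearMap.det_toLin', det_fin_two]
    simp [A]
  set yc : R2 := !₂[⟪c, f₀⟫, ⟪c, f₁⟫] with hyc
  set box : Set (Fin 2 → ℝ) := Icc (fun _ => -1) (fun _ => 1) with hbox
  have hsub : {y | ∃ t : ℝ, e y + t • u ∈ K} ⊆
      (fun y => y + -yc) ⁻¹' (WithLp.ofLp ⁻¹' (Matrix.toLin' A ⁻¹' box)) := by
    rintro y ⟨t, ht⟩
    have h1 : ⟪η, e y + t • u - c⟫ = a * (y 0 - ⟪c, f₀⟫) := by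
      rw [hηf]
      show ⟪a • f₀, y 0 • f₀ + y 1 • f₁ + t • u - c⟫ = _
      simp only [inner_sub_right, inner_add_right, real_inner_smul_left, real_inner_smul_right,
        h00, h01, hf0z, real_inner_comm f₀ c]
      ring
    have h2 : ⟪η', e y + t • u - c⟫ = α * (y 0 - ⟪c, f₀⟫) + β * (y 1 - ⟪c, f₁⟫) := by
      rw [hη'f]
      show ⟪α • f₀ + β • f₁, y 0 • f₀ + y 1 • f₁ + t • u - c⟫ = _
      simp only [inner_sub_right, inner_add_right, inner_add_left, real_inner_smul_left,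
        real_inner_smul_right, h00, h01, h10, h11, hf0z, hf1z, real_inner_comm f₀ c,
        real_inner_comm f₁ c]
      ring
    obtain ⟨k1, k2⟩ := hK _ ht
    rw [h1, abs_le] at k1
    rw [h2, abs_le] at k2
    simp only [mem_preimage, hbox, mem_Icc, Pi.le_def, Fin.forall_fin_two]
    simp [A, hyc, Matrix.toLin'_apply, mulVec, dotProduct, Fin.sum_univ_two, ← sub_eq_add_neg]
    exact ⟨⟨k1.1, k2.1⟩, k1.2, k2.2⟩
  refine (measure_mono hsub).trans (le_of_eq ?_)
  have hm : MeasurableSet (Matrix.toLin' A ⁻¹' box) :=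
    measurableSet_Icc.preimage (Matrix.toLin' A).continuous_of_finiteDimensional.measurable
  rw [measure_preimage_add_right,
    (PiLp.volume_preserving_ofLp (Fin 2)).measure_preimage hm.nullMeasurableSet,
    Measure.addHaar_preimage_linearMap _ (by rw [hdet]; positivity), hdet, hbox,
    Real.volume_Icc_pi, Fin.prod_univ_two, ← ENNReal.ofReal_mul (by norm_num),
    ← ENNReal.ofReal_mul (abs_nonneg _)]
  congr 1
  rw [hβ, mul_div_cancel₀ _ ha0.ne', abs_of_pos (inv_pos.2 hw)]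
  ring

/-- The dual of a body in coordinates. -/
def polarSet (S : Set V3) : Set V3 := {y | ∀ v ∈ S, y ⬝ᵥ v ≤ 1}

lemma mem_of_polar {S : Set V3} (hc : Convex ℝ S) (hcl : IsClosed S) (h0 : (0 : V3) ∈ S) {x : V3}
    (hx : ∀ y ∈ polarSet S, y ⬝ᵥ x ≤ 1) : x ∈ S := by
  by_contra hnot
  obtain ⟨f, r, hf, hfx⟩ := geometric_hahn_banach_closed_point hc hcl hnot
  have hr : 0 < r := by simpa using hf 0 h0
  set g : V3 := fun k => f (Pi.single k 1) / r with hg
  have hfe : ∀ v : V3, g ⬝ᵥ v = f v / r := fun v => by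
    have hv : v = ∑ k, v k • Pi.single k (1 : ℝ) := by
      ext i; fin_cases i <;> simp [Fin.sum_univ_three]
    conv_rhs => rw [hv]
    simp only [map_sum, map_smul, smul_eq_mul, dotProduct, hg, Finset.sum_div]
    exact Finset.sum_congr rfl fun k _ => by ring
  have h1 := hx g fun v hv => by
    rw [hfe, div_le_one hr]; exact (hf v hv).le
  rw [hfe, div_le_one hr] at h1
  linarith

/-- The covering bound for centrally symmetric bodies. -/
theorem half_bound {K : Set R3} (hK : IsCompact K) (hKc : Convex ℝ K)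
    (hne : (interior K).Nonempty) (c : R3) (hsym : ∀ x ∈ K, (2 : ℝ) • c - x ∈ K)
    (m : ℕ) (u : Fin m → R3) (e : Fin m → R2 →ₗᵢ[ℝ] R3) (B : Fin m → Set R2)
    (hu : ∀ i, ‖u i‖ = 1) (he : ∀ i y, ⟪e i y, u i⟫ = 0)
    (hcov : K ⊆ ⋃ i, {x | ∃ y ∈ B i, ∃ t : ℝ, x = e i y + t • u i}) (A : ℝ≥0∞)
    (hA : ∀ (v : R3) (f : R2 →ₗᵢ[ℝ] R3), ‖v‖ = 1 → (∀ y, ⟪f y, v⟫ = 0) →
      A ≤ volume {y | ∃ t : ℝ, f y + t • v ∈ K}) :
    ENNReal.ofReal (π * √(√2 - 1) / 4) * A ≤ ∑ i, volume (B i) := by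
  set S : Set V3 := {v | c + WithLp.toLp 2 v ∈ K} with hS
  have hmemS : ∀ x ∈ K, WithLp.ofLp (x - c) ∈ S := fun x hx => by
    show c + WithLp.toLp 2 (WithLp.ofLp (x - c)) ∈ K
    simpa using hx
  have hSsym : ∀ v ∈ S, -v ∈ S := fun v hv => by
    have := hsym _ hv
    rw [show (2 : ℝ) • c - (c + WithLp.toLp 2 v) = c + WithLp.toLp 2 (-v) by
      rw [WithLp.toLp_neg]; module] at this
    exact this
  have hSconv : Convex ℝ S := fun v hv w hw a b ha hb hab => by
    have := hKc hv hw ha hb hab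
    show c + WithLp.toLp 2 (a • v + b • w) ∈ K
    convert this using 1
    rw [WithLp.toLp_add, WithLp.toLp_smul, WithLp.toLp_smul, smul_add, smul_add,
      add_add_add_comm, ← add_smul, hab, one_smul]
  have hScl : IsClosed S := hK.isClosed.preimage (by fun_prop)
  obtain ⟨ε, hε, hεS⟩ : ∃ ε : ℝ, 0 < ε ∧ ∀ k : Fin 3, Pi.single k ε ∈ S := by
    obtain ⟨p, hp⟩ := hne
    obtain ⟨r, hr, hball⟩ := Metric.isOpen_iff.1 isOpen_interior p hp
    refine ⟨r / 2, by positivity, fun k => ?_⟩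
    set q : R3 := WithLp.toLp 2 (Pi.single k (r / 2)) with hq
    have hqn : ‖q‖ < r := by
      rw [hq, show WithLp.toLp 2 (Pi.single k (r / 2)) = EuclideanSpace.single k (r / 2) from rfl,
        PiLp.norm_single, Real.norm_of_nonneg (by positivity)]
      linarith
    have h1 : p + q ∈ K := interior_subset (hball (by simpa [dist_eq_norm] using hqn))
    have h2 := hsym _ (interior_subset (hball (show p - q ∈ ball p r by
      simpa [dist_eq_norm] using hqn)))
    have := hKc h1 h2 (show (0 : ℝ) ≤ 1 / 2 by norm_num) (show (0 : ℝ) ≤ 1 / 2 by norm_num)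
      (by norm_num)
    show c + q ∈ K
    convert this using 1
    module
  have h0S : (0 : V3) ∈ S := by
    have := hSconv (hεS 0) (hSsym _ (hεS 0)) (show (0 : ℝ) ≤ 1 / 2 by norm_num)
      (show (0 : ℝ) ≤ 1 / 2 by norm_num) (by norm_num)
    simpa using this
  have hYcl : IsClosed (polarSet S) := by
    have : polarSet S = ⋂ v ∈ S, {y | y ⬝ᵥ v ≤ 1} := by ext y; simp [polarSet]
    rw [this]
    exact isClosed_biInter fun v _ => isClosed_le (by fun_prop) continuous_const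
  have hY : IsCompact (polarSet S) := by
    refine (isCompact_univ_pi fun _ : Fin 3 => isCompact_Icc (a := -ε⁻¹) (b := ε⁻¹)).of_isClosed_subset
      hYcl fun y hy k _ => ?_
    have h1 := hy _ (hεS k)
    have h2 := hy _ (hSsym _ (hεS k))
    rw [dotProduct_single] at h1
    rw [dotProduct_neg, dotProduct_single] at h2
    have hi : ε * ε⁻¹ = 1 := mul_inv_cancel₀ hε.ne'
    constructor <;> nlinarith
  obtain ⟨R, hR⟩ := hK.isBounded.subset_closedBall c
  set δ : ℝ := (max R 1)⁻¹ with hδ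
  have hδ0 : 0 < δ := inv_pos.2 (by positivity)
  have hδY : ∀ k : Fin 3, Pi.single k δ ∈ polarSet S := fun k v hv => by
    rw [single_dotProduct, hδ, inv_mul_le_iff₀ (by positivity), mul_one]
    have h := hR hv
    rw [mem_closedBall, dist_eq_norm, add_sub_cancel_left] at h
    calc v k ≤ ‖v k‖ := le_abs_self _
      _ ≤ ‖(WithLp.toLp 2 v : R3)‖ := PiLp.norm_apply_le (WithLp.toLp 2 v) k
      _ ≤ _ := h.trans (le_max_left _ _)
  obtain ⟨T, hd, hfeas, y, hy, y', hy', hpair⟩ := exists_pair hY hδ0 hδY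
  set k := √(√2 - 1) with hk
  have hk2 : 0 < √2 - 1 := by
    have : (1 : ℝ) < √2 := Real.lt_sqrt_of_sq_lt (by norm_num)
    linarith
  have hk0 : 0 < k := Real.sqrt_pos.2 hk2
  set W := (y ⨯₃ y') ⬝ᵥ (y ⨯₃ y') with hW
  have hW0 : 0 < W := by
    have h := hpair (Pi.single 0 1)
    have hne : T *ᵥ Pi.single 0 1 ≠ 0 := fun h0 => by
      have := Matrix.eq_zero_of_mulVec_eq_zero hd h0
      simpa using congrFun this 0
    have h1 : 0 < (T *ᵥ Pi.single 0 1) ⬝ᵥ (T *ᵥ Pi.single 0 1) :=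
      lt_of_le_of_ne (Finset.sum_nonneg fun _ _ => mul_self_nonneg _)
        fun h => hne (dotProduct_self_eq_zero.1 h.symm)
    simp only [single_dotProduct, Pi.single_eq_same, mul_one] at h
    by_contra hW
    nlinarith [mul_pos hk2 h1, sq_nonneg T.det]
  set w := √W with hw
  have hw0 : 0 < w := Real.sqrt_pos.2 hW0
  -- the shadow
  have hAle : A ≤ ENNReal.ofReal (4 / w) := by
    have hz : (WithLp.toLp 2 (y ⨯₃ y') : R3) ≠ 0 := fun h => by
      have := norm_toLp_sq (y ⨯₃ y')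
      rw [h, norm_zero, ← hW] at this
      linarith [show ((0 : ℝ)) ^ 2 = 0 by norm_num]
    obtain ⟨v, f, hv, hf, hle⟩ := small_shadow (K := K) (c := c) (η := WithLp.toLp 2 y)
      (η' := WithLp.toLp 2 y') (z := WithLp.toLp 2 (y ⨯₃ y')) hw0
      (by rw [hw, Real.sq_sqrt hW0.le, norm_toLp_sq, norm_toLp_sq, inner_toLp, hW,
            cross_dot_cross, dotProduct_comm y' y]
          ring)
      hz (by rw [inner_toLp]; exact dot_self_cross y y')
      (by rw [inner_toLp]; exact dot_cross_self y y') fun x hx => by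
        have h : ∀ η ∈ polarSet S, |⟪(WithLp.toLp 2 η : R3), x - c⟫| ≤ 1 := fun η hη => by
          have h1 := hη _ (hmemS x hx)
          have h2 := hη _ (hSsym _ (hmemS x hx))
          rw [show x - c = WithLp.toLp 2 (WithLp.ofLp (x - c)) from rfl, inner_toLp, abs_le]
          rw [dotProduct_neg] at h2
          exact ⟨by linarith, h1⟩
        exact ⟨h y hy, h y' hy'⟩
    exact (hA v f hv hf).trans hle
  -- the ellipsoid
  set L := Matrix.toEuclideanLin T with hL
  have hLdet : LinearMap.det L = T.det := by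
    rw [hL, show Matrix.toEuclideanLin T = Matrix.toLpLin 2 2 T from rfl, Matrix.toLpLin_eq_toLin,
      LinearMap.det_toLin]
  have hLv : ∀ v : R3, L v = WithLp.toLp 2 (T *ᵥ WithLp.ofLp v) := fun v => rfl
  set M := |T.det| * w / k with hM
  have hMle : ∀ v : R3, ‖L v‖ ≤ M * ‖v‖ := fun v => by
    refine (pow_le_pow_iff_left₀ (norm_nonneg _) (by positivity) two_ne_zero).1 ?_
    rw [hLv, norm_toLp_sq, mul_pow, hM, div_pow, mul_pow, sq_abs, hk, Real.sq_sqrt hk2.le, hw,
      Real.sq_sqrt hW0.le, show ‖v‖ ^ 2 = v.ofLp ⬝ᵥ v.ofLp from norm_toLp_sq v.ofLp,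
      div_mul_eq_mul_div, le_div_iff₀ hk2]
    linarith [hpair v.ofLp]
  have hcover := ellipsoid_cover c L (by rw [hLdet]; exact hd) hMle m u e
    (fun i => toMeasurable volume (B i)) (fun i => measurableSet_toMeasurable _ _) hu he
    fun v hv => by
      have hin : T *ᵥ v.ofLp ∈ S := by
        refine mem_of_polar hSconv hScl h0S fun η hη => ?_
        rw [dotProduct_mulVec]
        have h1 := hfeas η hη
        have h2 : v.ofLp ⬝ᵥ v.ofLp ≤ 1 := by
          rw [← norm_toLp_sq]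
          exact pow_le_one₀ (norm_nonneg _) hv.le
        simp only [dotProduct, Fin.sum_univ_three] at h1 h2 ⊢
        nlinarith [sq_nonneg ((η ᵥ* T) 0 - v.ofLp 0), sq_nonneg ((η ᵥ* T) 1 - v.ofLp 1),
          sq_nonneg ((η ᵥ* T) 2 - v.ofLp 2)]
      obtain ⟨i, hi⟩ := Set.mem_iUnion.1 (hcov hin)
      obtain ⟨z, hz, t, ht⟩ := hi
      exact ⟨i, z, subset_toMeasurable _ _ hz, t, by rw [hLv]; exact ht⟩
  simp only [measure_toMeasurable, hLdet] at hcover
  have hMpos : 0 < M := div_pos (mul_pos (abs_pos.2 hd) hw0) hk0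
  refine (ENNReal.mul_le_mul_iff_right (ENNReal.ofReal_pos.2 hMpos).ne' ENNReal.ofReal_ne_top).1 ?_
  refine le_trans ?_ hcover
  calc ENNReal.ofReal M * (ENNReal.ofReal (π * k / 4) * A)
      ≤ ENNReal.ofReal M * (ENNReal.ofReal (π * k / 4) * ENNReal.ofReal (4 / w)) := by gcongr
    _ = ENNReal.ofReal (π * |T.det|) := by
      rw [← ENNReal.ofReal_mul (by positivity), ← ENNReal.ofReal_mul hMpos.le, hM]
      congr 1
      field_simp

end Vale.Agent.P243.Half
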